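import Mathlib

open Finset

namespace Vale.Agent.Lib.P047FP

/-- Real value of a sign. -/
def sg (u : ℤˣ) : ℝ := ((u : ℤ) : ℝ)

lemma sg_sq (u : ℤˣ) : sg u * sg u = 1 := by
  rcases Int.units_eq_one_or u with h | h <;> simp [sg, h]

lemma sg_neg (u : ℤˣ) : sg (-u) = - sg u := by
  simp [sg]

/-- Indicator of the subcube fixing the coordinates `A` to the values of `s`. -/
noncomputable def ind {n : ℕ} (A : Finset (Fin n)) (s : Fin n → ℤˣ) (x : Fin n → ℤˣ) : ℝ :=
  if ∀ i ∈ A, x i = s i then 1 else 0

lemma ind_nonneg {n : ℕ} (A : Finset (Fin n)) (s x : Fin n → ℤˣ) : 0 ≤ ind A s x := by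
  unfold ind; split_ifs <;> norm_num

/-- Flip one coordinate. -/
noncomputable def flip {n : ℕ} (i : Fin n) (x : Fin n → ℤˣ) : Fin n → ℤˣ :=
  Function.update x i (-(x i))

lemma flip_flip {n : ℕ} (i : Fin n) (x : Fin n → ℤˣ) : flip i (flip i x) = x := by
  funext j
  by_cases h : j = i
  · subst h; simp [flip]
  · simp [flip, h]

/-- Flipping is a permutation of the cube. -/
noncomputable def flipEquiv {n : ℕ} (i : Fin n) : (Fin n → ℤˣ) ≃ (Fin n → ℤˣ) :=
  ⟨flip i, flip i, flip_flip i, flip_flip i⟩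

lemma ind_flip {n : ℕ} {A : Finset (Fin n)} (s : Fin n → ℤˣ) {i : Fin n} (hi : i ∉ A)
    (x : Fin n → ℤˣ) : ind A s (flip i x) = ind A s x := by
  unfold ind
  have : (∀ j ∈ A, flip i x j = s j) ↔ (∀ j ∈ A, x j = s j) := by
    constructor
    · intro h j hj
      have hne : j ≠ i := fun e => hi (e ▸ hj)
      simpa [flip, hne] using h j hj
    · intro h j hj
      have hne : j ≠ i := fun e => hi (e ▸ hj)
      simpa [flip, hne] using h j hj
  simp [this]

/-- Mass of a subcube (times the size of the cube). -/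
noncomputable def mass {n : ℕ} (A : Finset (Fin n)) (s : Fin n → ℤˣ) : ℝ :=
  ∑ x, ind A s x

lemma mass_nonneg {n : ℕ} (A : Finset (Fin n)) (s : Fin n → ℤˣ) : 0 ≤ mass A s :=
  Finset.sum_nonneg fun x _ => ind_nonneg A s x

/-- First moment of a coordinate on a subcube. -/
lemma first_moment_out {n : ℕ} {A : Finset (Fin n)} (s : Fin n → ℤˣ) {i : Fin n} (hi : i ∉ A) :
    ∑ x, ind A s x * sg (x i) = 0 := by
  have h := Equiv.sum_comp (flipEquiv i) (fun x => ind A s x * sg (x i))
  have h2 : ∀ x, ind A s (flipEquiv i x) * sg ((flipEquiv i x) i) = - (ind A s x * sg (x i)) := by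
    intro x
    have e1 : flipEquiv i x = flip i x := rfl
    rw [e1, ind_flip s hi]
    simp [flip, sg_neg]
  simp only [h2, Finset.sum_neg_distrib] at h
  linarith

lemma first_moment_in {n : ℕ} {A : Finset (Fin n)} (s : Fin n → ℤˣ) {i : Fin n} (hi : i ∈ A) :
    ∑ x, ind A s x * sg (x i) = mass A s * sg (s i) := by
  unfold mass
  rw [Finset.sum_mul]
  refine Finset.sum_congr rfl fun x _ => ?_
  unfold ind
  split_ifs with h
  · rw [h i hi]
  · simp

/-- Second moment of two coordinates on a subcube. -/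
lemma second_moment_out {n : ℕ} {A : Finset (Fin n)} (s : Fin n → ℤˣ) {i j : Fin n}
    (hij : i ≠ j) (hi : i ∉ A) :
    ∑ x, ind A s x * (sg (x i) * sg (x j)) = 0 := by
  have h := Equiv.sum_comp (flipEquiv i) (fun x => ind A s x * (sg (x i) * sg (x j)))
  have h2 : ∀ x, ind A s (flipEquiv i x) * (sg ((flipEquiv i x) i) * sg ((flipEquiv i x) j))
      = - (ind A s x * (sg (x i) * sg (x j))) := by
    intro x
    have e1 : flipEquiv i x = flip i x := rfl
    rw [e1, ind_flip s hi]
    have hji : j ≠ i := fun e => hij e.symm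
    simp [flip, sg_neg, hji]
  simp only [h2, Finset.sum_neg_distrib] at h
  linarith

lemma second_moment_in {n : ℕ} {A : Finset (Fin n)} (s : Fin n → ℤˣ) {i j : Fin n}
    (hi : i ∈ A) (hj : j ∈ A) :
    ∑ x, ind A s x * (sg (x i) * sg (x j)) = mass A s * (sg (s i) * sg (s j)) := by
  unfold mass
  rw [Finset.sum_mul]
  refine Finset.sum_congr rfl fun x _ => ?_
  unfold ind
  split_ifs with h
  · rw [h i hi, h j hj]
  · simp

lemma second_moment_diag {n : ℕ} (A : Finset (Fin n)) (s : Fin n → ℤˣ) (i : Fin n) :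
    ∑ x, ind A s x * (sg (x i) * sg (x i)) = mass A s := by
  unfold mass
  refine Finset.sum_congr rfl fun x _ => ?_
  rw [sg_sq, mul_one]

/-- The signed sum of a point. -/
noncomputable def ell {n : ℕ} (x : Fin n → ℤˣ) : ℝ := ∑ i, sg (x i)

/-- The signed sum of the prescribed values on `A`. -/
noncomputable def sumA {n : ℕ} (A : Finset (Fin n)) (s : Fin n → ℤˣ) : ℝ := ∑ i ∈ A, sg (s i)

lemma ind_ell {n : ℕ} (A : Finset (Fin n)) (s : Fin n → ℤˣ) :
    ∑ x, ind A s x * ell x = mass A s * sumA A s := by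
  classical
  unfold ell sumA
  simp_rw [Finset.mul_sum]
  rw [Finset.sum_comm]
  have h : ∀ i : Fin n, ∑ x, ind A s x * sg (x i)
      = if i ∈ A then mass A s * sg (s i) else 0 := by
    intro i
    split_ifs with hi
    · exact first_moment_in s hi
    · exact first_moment_out s hi
  simp_rw [h]
  rw [Finset.sum_ite_mem]
  simp

/-- The key identity: second moment of the signed sum on a subcube. -/
lemma ind_ell_sq {n : ℕ} (A : Finset (Fin n)) (s : Fin n → ℤˣ) :
    ∑ x, ind A s x * (ell x) ^ 2
      = mass A s * ((sumA A s) ^ 2 + ((n : ℝ) - (A.card : ℝ))) := by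
  classical
  have hexp : ∀ x : Fin n → ℤˣ, ind A s x * (ell x) ^ 2
      = ∑ i, ∑ j, ind A s x * (sg (x i) * sg (x j)) := by
    intro x
    unfold ell
    rw [sq, Finset.sum_mul_sum, Finset.mul_sum]
    refine Finset.sum_congr rfl fun i _ => ?_
    rw [Finset.mul_sum]
  simp_rw [hexp]
  rw [Finset.sum_comm]
  simp_rw [Finset.sum_comm (s := (Finset.univ : Finset (Fin n → ℤˣ)))]
  have hval : ∀ i j : Fin n, ∑ x, ind A s x * (sg (x i) * sg (x j))
      = (if i ∈ A ∧ j ∈ A then mass A s * (sg (s i) * sg (s j)) else 0)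
        + (if i = j ∧ i ∉ A then mass A s else 0) := by
    intro i j
    by_cases hi : i ∈ A
    · by_cases hj : j ∈ A
      · simp [hi, hj, second_moment_in s hi hj]
      · have hji : j ≠ i := fun e => hj (e ▸ hi)
        have h0 : ∑ x, ind A s x * (sg (x i) * sg (x j)) = 0 := by
          have := second_moment_out s hji hj
          simpa [mul_comm] using this
        simp [hi, hj, h0]
    · by_cases hij : i = j
      · subst hij
        simp [hi, second_moment_diag]
      · simp [hi, hij, second_moment_out s hij hi]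
  simp_rw [hval, Finset.sum_add_distrib]
  have h1 : ∑ i, ∑ j, (if i ∈ A ∧ j ∈ A then mass A s * (sg (s i) * sg (s j)) else 0)
      = mass A s * (sumA A s) ^ 2 := by
    unfold sumA
    rw [sq, Finset.sum_mul_sum, Finset.mul_sum]
    rw [← Finset.sum_filter_add_sum_filter_not Finset.univ (fun i => i ∈ A)]
    have hf : Finset.univ.filter (fun i => i ∈ A) = A := by ext; simp
    rw [hf]
    have h0 : ∑ i ∈ Finset.univ.filter (fun i => ¬ i ∈ A),
        ∑ j, (if i ∈ A ∧ j ∈ A then mass A s * (sg (s i) * sg (s j)) else 0) = 0 := by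
      refine Finset.sum_eq_zero fun i hi => ?_
      have : i ∉ A := (Finset.mem_filter.mp hi).2
      simp [this]
    rw [h0, add_zero]
    refine Finset.sum_congr rfl fun i hi => ?_
    rw [Finset.mul_sum]
    rw [← Finset.sum_filter_add_sum_filter_not Finset.univ (fun j => j ∈ A), hf]
    have h00 : ∑ j ∈ Finset.univ.filter (fun j => ¬ j ∈ A),
        (if i ∈ A ∧ j ∈ A then mass A s * (sg (s i) * sg (s j)) else 0) = 0 := by
      refine Finset.sum_eq_zero fun j hj => ?_
      have : j ∉ A := (Finset.mem_filter.mp hj).2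
      simp [this]
    rw [h00, add_zero]
    refine Finset.sum_congr rfl fun j hj => ?_
    simp [hi, hj]
  have h2 : ∑ i, ∑ j, (if i = j ∧ i ∉ A then mass A s else 0)
      = mass A s * ((n : ℝ) - (A.card : ℝ)) := by
    have h3 : ∀ i : Fin n, ∑ j, (if i = j ∧ i ∉ A then mass A s else 0)
        = if i ∉ A then mass A s else 0 := by
      intro i
      by_cases hi : i ∈ A
      · simp [hi]
      · simp [hi]
    simp_rw [h3]
    rw [Finset.sum_ite, Finset.sum_const_zero, add_zero, Finset.sum_const, nsmul_eq_mul]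
    have hc : ((Finset.univ.filter (fun i : Fin n => i ∉ A)).card : ℝ)
        = (n : ℝ) - (A.card : ℝ) := by
      have hcompl : Finset.univ.filter (fun i : Fin n => i ∉ A) = Aᶜ := by ext; simp
      rw [hcompl]
      have := Finset.card_add_card_compl A
      simp only [Fintype.card_fin] at this
      have h' : (A.card : ℝ) + ((Aᶜ).card : ℝ) = n := by
        exact_mod_cast this
      linarith
    rw [hc]; ring
  rw [h1, h2]; ring

end Vale.Agent.Lib.P047FP
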