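import Mathlib
import Vale.Agent.Lib.P047FP.Basic

open Finset

namespace Vale.Agent.Lib.P047FP

lemma ind_empty {n : ℕ} (s x : Fin n → ℤˣ) : ind ∅ s x = 1 := by
  simp [ind]

lemma mass_empty {n : ℕ} (s : Fin n → ℤˣ) : mass (∅ : Finset (Fin n)) s = 2 ^ n := by
  unfold mass
  simp only [ind_empty, Finset.sum_const, Finset.card_univ, Fintype.card_fun,
    Fintype.card_fin, Fintype.card_units_int, nsmul_eq_mul, mul_one]
  norm_num

lemma units_ne_iff (a b : ℤˣ) : a ≠ b ↔ a = -b := by
  rcases Int.units_eq_one_or a with h | h <;> rcases Int.units_eq_one_or b with h' | h' <;>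
    simp [h, h']

lemma ind_split {n : ℕ} {A : Finset (Fin n)} (s : Fin n → ℤˣ) {i : Fin n} (hi : i ∉ A)
    (x : Fin n → ℤˣ) :
    ind A s x = ind (insert i A) s x + ind (insert i A) s (flip i x) := by
  classical
  unfold ind
  have hout : ∀ j ∈ A, flip i x j = x j := by
    intro j hj
    have hne : j ≠ i := fun e => hi (e ▸ hj)
    simp [flip, hne]
  by_cases hx : ∀ j ∈ A, x j = s j
  · have hy : ∀ j ∈ A, flip i x j = s j := fun j hj => by rw [hout j hj]; exact hx j hj
    by_cases hxi : x i = s i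
    · have h1 : ∀ j ∈ insert i A, x j = s j := by
        intro j hj
        rcases Finset.mem_insert.mp hj with rfl | hj
        · exact hxi
        · exact hx j hj
      have h2 : ¬ ∀ j ∈ insert i A, flip i x j = s j := by
        intro h
        have h3 := h i (Finset.mem_insert_self i A)
        have h4 : flip i x i = - x i := by simp [flip]
        rw [h4, hxi] at h3
        have h5 := (units_ne_iff (s i) (s i)).mpr h3.symm
        exact h5 rfl
      rw [if_pos hx, if_pos h1, if_neg h2, add_zero]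
    · have h1 : ¬ ∀ j ∈ insert i A, x j = s j := fun h =>
        hxi (h i (Finset.mem_insert_self i A))
      have h2 : ∀ j ∈ insert i A, flip i x j = s j := by
        intro j hj
        rcases Finset.mem_insert.mp hj with rfl | hj
        · have h4 : flip j x j = - x j := by simp [flip]
          rw [h4]
          have h5 := (units_ne_iff (x j) (s j)).mp hxi
          rw [h5, neg_neg]
        · exact hy j hj
      rw [if_pos hx, if_neg h1, if_pos h2, zero_add]
  · have h1 : ¬ ∀ j ∈ insert i A, x j = s j := fun h =>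
      hx fun j hj => h j (Finset.mem_insert_of_mem hj)
    have h2 : ¬ ∀ j ∈ insert i A, flip i x j = s j := fun h =>
      hx fun j hj => by rw [← hout j hj]; exact h j (Finset.mem_insert_of_mem hj)
    rw [if_neg hx, if_neg h1, if_neg h2, add_zero]

lemma mass_insert {n : ℕ} {A : Finset (Fin n)} (s : Fin n → ℤˣ) {i : Fin n} (hi : i ∉ A) :
    mass A s = 2 * mass (insert i A) s := by
  classical
  unfold mass
  have h1 : ∑ x, ind A s x
      = ∑ x, ind (insert i A) s x + ∑ x, ind (insert i A) s (flip i x) := by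
    rw [← Finset.sum_add_distrib]
    exact Finset.sum_congr rfl fun x _ => ind_split s hi x
  have h2 : ∑ x, ind (insert i A) s (flip i x) = ∑ x, ind (insert i A) s x :=
    Equiv.sum_comp (flipEquiv i) (fun x => ind (insert i A) s x)
  rw [h1, h2]; ring

lemma mass_mul {n : ℕ} (A : Finset (Fin n)) (s : Fin n → ℤˣ) :
    mass A s * 2 ^ A.card = 2 ^ n := by
  classical
  induction A using Finset.induction_on with
  | empty => simp [mass_empty]
  | insert i A hi ih =>
    rw [Finset.card_insert_of_notMem hi, pow_succ]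
    rw [mass_insert s hi] at ih
    rw [← ih]; ring

lemma mass_eq {n : ℕ} (A : Finset (Fin n)) (s : Fin n → ℤˣ) :
    mass A s = 2 ^ n / 2 ^ A.card := by
  have h := mass_mul A s
  have h2 : (2 : ℝ) ^ A.card ≠ 0 := by positivity
  field_simp
  linarith

/-- Weighted Cauchy-Schwarz. -/
lemma weighted_cs {ι : Type} [Fintype ι] (p a b : ι → ℝ) (hp : ∀ c, 0 ≤ p c) :
    (∑ c, p c * (a c * b c)) ^ 2 ≤ (∑ c, p c * (a c) ^ 2) * (∑ c, p c * (b c) ^ 2) := by
  have h := Finset.sum_mul_sq_le_sq_mul_sq (Finset.univ : Finset ι)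
    (fun c => Real.sqrt (p c) * a c) (fun c => Real.sqrt (p c) * b c)
  have e : ∀ c, Real.sqrt (p c) * Real.sqrt (p c) = p c :=
    fun c => Real.mul_self_sqrt (hp c)
  have e1 : ∀ c, (Real.sqrt (p c) * a c) * (Real.sqrt (p c) * b c) = p c * (a c * b c) := by
    intro c
    calc (Real.sqrt (p c) * a c) * (Real.sqrt (p c) * b c)
        = (Real.sqrt (p c) * Real.sqrt (p c)) * (a c * b c) := by ring
      _ = p c * (a c * b c) := by rw [e]
  have e2 : ∀ (c : ι) (y : ℝ), (Real.sqrt (p c) * y) ^ 2 = p c * y ^ 2 := by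
    intro c y
    calc (Real.sqrt (p c) * y) ^ 2 = (Real.sqrt (p c) * Real.sqrt (p c)) * y ^ 2 := by ring
      _ = p c * y ^ 2 := by rw [e]
  simp only [e1, e2] at h
  exact h

section Partition

variable {n : ℕ} {ι : Type} [Fintype ι]

lemma sum_decomp (A : ι → Finset (Fin n)) (σ : ι → Fin n → ℤˣ) (w : ι → ℝ)
    (hc : ∀ x, ∑ c, w c * ind (A c) (σ c) x = 1) (g : (Fin n → ℤˣ) → ℝ) :
    ∑ x, g x = ∑ c, w c * ∑ x, ind (A c) (σ c) x * g x := by
  calc ∑ x, g x = ∑ x, (∑ c, w c * ind (A c) (σ c) x) * g x := by simp [hc]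
    _ = ∑ x, ∑ c, w c * (ind (A c) (σ c) x * g x) := by
        refine Finset.sum_congr rfl fun x _ => ?_
        rw [Finset.sum_mul]
        refine Finset.sum_congr rfl fun c _ => ?_
        ring
    _ = ∑ c, ∑ x, w c * (ind (A c) (σ c) x * g x) := Finset.sum_comm
    _ = ∑ c, w c * ∑ x, ind (A c) (σ c) x * g x := by
        refine Finset.sum_congr rfl fun c _ => ?_
        rw [Finset.mul_sum]

lemma sum_decomp_mono (f : (Fin n → ℤˣ) → ℤˣ) (A : ι → Finset (Fin n)) (σ : ι → Fin n → ℤˣ)
    (w : ι → ℝ) (hc : ∀ x, ∑ c, w c * ind (A c) (σ c) x = 1)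
    (hmono : ∀ c, w c ≠ 0 → ∀ x y, (∀ i ∈ A c, x i = σ c i) → (∀ i ∈ A c, y i = σ c i) →
      f x = f y) (g : (Fin n → ℤˣ) → ℝ) :
    ∑ x, sg (f x) * g x = ∑ c, w c * (sg (f (σ c)) * ∑ x, ind (A c) (σ c) x * g x) := by
  rw [sum_decomp A σ w hc]
  refine Finset.sum_congr rfl fun c _ => ?_
  by_cases hw : w c = 0
  · simp [hw]
  congr 1
  rw [Finset.mul_sum]
  refine Finset.sum_congr rfl fun x _ => ?_
  unfold ind
  split_ifs with h
  · rw [hmono c hw x (σ c) h (fun _ _ => rfl)]; ring
  · ring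

end Partition

end Vale.Agent.Lib.P047FP
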