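import Mathlib
import Vale.Agent.Lib.P047FP.Moments

open Finset

namespace Vale.Agent.Lib.P047FP

section Main

variable {n : ℕ} {ι : Type} [Fintype ι]

/-- The level-one sum, as a sum over partition pieces. -/
theorem partition_facts (f : (Fin n → ℤˣ) → ℤˣ) (A : ι → Finset (Fin n)) (σ : ι → Fin n → ℤˣ)
    (w : ι → ℝ) (hc : ∀ x, ∑ c, w c * ind (A c) (σ c) x = 1)
    (hmono : ∀ c, w c ≠ 0 → ∀ x y, (∀ i ∈ A c, x i = σ c i) → (∀ i ∈ A c, y i = σ c i) →
      f x = f y) :
    (∑ c, w c / 2 ^ (A c).card = 1) ∧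
    (∑ c, w c / 2 ^ (A c).card * sumA (A c) (σ c) = 0) ∧
    (∑ c, w c / 2 ^ (A c).card * ((sumA (A c) (σ c)) ^ 2 + ((n : ℝ) - ((A c).card : ℝ))) = (n : ℝ)) ∧
    (∑ c, w c / 2 ^ (A c).card * sg (f (σ c)) = (∑ x, sg (f x)) / 2 ^ n) ∧
    (∑ c, w c / 2 ^ (A c).card * (sg (f (σ c)) * sumA (A c) (σ c))
      = ∑ i, (∑ x, sg (f x) * sg (x i)) / 2 ^ n) := by
  have hN : (2 : ℝ) ^ n ≠ 0 := by positivity
  have hm : ∀ c, w c * mass (A c) (σ c) = w c / 2 ^ (A c).card * 2 ^ n := by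
    intro c
    rw [mass_eq]; ring
  refine ⟨?_, ?_, ?_, ?_, ?_⟩
  · -- total mass
    have h := sum_decomp A σ w hc (fun _ => 1)
    have h1 : ∀ c, ∑ x, ind (A c) (σ c) x * (1 : ℝ) = mass (A c) (σ c) := by
      intro c; simp [mass]
    simp only [h1, hm] at h
    rw [← Finset.sum_mul] at h
    have h2 : ∑ _x : Fin n → ℤˣ, (1 : ℝ) = 2 ^ n := by
      simp [Finset.card_univ, Fintype.card_units_int]
    rw [h2] at h
    have := mul_right_cancel₀ hN (by rw [one_mul]; exact h.symm :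
      (∑ c, w c / 2 ^ (A c).card) * 2 ^ n = 1 * 2 ^ n)
    exact this
  · -- first moment of the sum
    have h := sum_decomp A σ w hc ell
    have h0 : ∑ x : Fin n → ℤˣ, ell x = 0 := by
      have := ind_ell (∅ : Finset (Fin n)) (fun _ => 1)
      simpa [ind_empty, sumA] using this
    rw [h0] at h
    simp only [ind_ell] at h
    have h3 : ∀ c, w c * (mass (A c) (σ c) * sumA (A c) (σ c))
        = (w c / 2 ^ (A c).card * sumA (A c) (σ c)) * 2 ^ n := by
      intro c
      rw [← mul_assoc, hm]; ring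
    simp only [h3] at h
    rw [← Finset.sum_mul] at h
    exact (mul_eq_zero.mp h.symm).resolve_right hN
  · -- second moment of the sum
    have h := sum_decomp A σ w hc (fun x => (ell x) ^ 2)
    have h0 : ∑ x : Fin n → ℤˣ, (ell x) ^ 2 = 2 ^ n * n := by
      have := ind_ell_sq (∅ : Finset (Fin n)) (fun _ => 1)
      simpa [ind_empty, sumA, mass_empty] using this
    rw [h0] at h
    simp only [ind_ell_sq] at h
    have h3 : ∀ c, w c * (mass (A c) (σ c) * ((sumA (A c) (σ c)) ^ 2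
          + ((n : ℝ) - ((A c).card : ℝ))))
        = (w c / 2 ^ (A c).card * ((sumA (A c) (σ c)) ^ 2
          + ((n : ℝ) - ((A c).card : ℝ)))) * 2 ^ n := by
      intro c
      rw [← mul_assoc, hm]; ring
    simp only [h3] at h
    rw [← Finset.sum_mul] at h
    have := mul_right_cancel₀ hN (by rw [← h]; ring :
      (∑ c, w c / 2 ^ (A c).card * ((sumA (A c) (σ c)) ^ 2
          + ((n : ℝ) - ((A c).card : ℝ)))) * 2 ^ n = (n : ℝ) * 2 ^ n)
    exact this
  · -- mean of `f`
    have h := sum_decomp_mono f A σ w hc hmono (fun _ => 1)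
    have h1 : ∀ c, ∑ x, ind (A c) (σ c) x = mass (A c) (σ c) := fun c => rfl
    simp only [mul_one, h1] at h
    have h3 : ∀ c, w c * (sg (f (σ c)) * mass (A c) (σ c))
        = (w c / 2 ^ (A c).card * sg (f (σ c))) * 2 ^ n := by
      intro c
      rw [mul_left_comm, hm]; ring
    simp only [h3] at h
    rw [← Finset.sum_mul] at h
    rw [h, mul_div_cancel_right₀ _ hN]
  · -- level-one sum
    have h := sum_decomp_mono f A σ w hc hmono ell
    simp only [ind_ell] at h
    have h3 : ∀ c, w c * (sg (f (σ c)) * (mass (A c) (σ c) * sumA (A c) (σ c)))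
        = (w c / 2 ^ (A c).card * (sg (f (σ c)) * sumA (A c) (σ c))) * 2 ^ n := by
      intro c
      have := hm c
      calc w c * (sg (f (σ c)) * (mass (A c) (σ c) * sumA (A c) (σ c)))
          = (w c * mass (A c) (σ c)) * (sg (f (σ c)) * sumA (A c) (σ c)) := by ring
        _ = _ := by rw [hm]; ring
    simp only [h3] at h
    rw [← Finset.sum_mul] at h
    have h4 : ∑ i, (∑ x, sg (f x) * sg (x i)) / 2 ^ n = (∑ x, sg (f x) * ell x) / 2 ^ n := by
      rw [← Finset.sum_div]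
      congr 1
      rw [Finset.sum_comm]
      refine Finset.sum_congr rfl fun x _ => ?_
      rw [ell, Finset.mul_sum]
    rw [h4, h, mul_div_cancel_right₀ _ hN]

/-- The pure Cauchy-Schwarz step. -/
lemma abstract_cs (p u s a : ι → ℝ) (N m : ℝ) (hp0 : ∀ c, 0 ≤ p c) (h1 : ∑ c, p c = 1)
    (h2 : ∑ c, p c * u c = 0) (h3 : ∑ c, p c * ((u c) ^ 2 + (N - a c)) = N)
    (h4 : ∑ c, p c * s c = m) (hs : ∀ c, s c * s c = 1) :
    (∑ c, p c * (s c * u c)) ^ 2 ≤ (1 - m ^ 2) * ∑ c, p c * a c := by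
  have hk : ∑ c, p c * (u c) ^ 2 = ∑ c, p c * a c := by
    have e : ∀ c, p c * ((u c) ^ 2 + (N - a c))
        = p c * (u c) ^ 2 + (p c * N - p c * a c) := by
      intro c; ring
    simp only [e, Finset.sum_add_distrib, Finset.sum_sub_distrib, ← Finset.sum_mul] at h3
    rw [h1] at h3
    linarith
  have hW : ∑ c, p c * (s c * u c) = ∑ c, p c * ((s c - m) * u c) := by
    have e : ∀ c, p c * ((s c - m) * u c) = p c * (s c * u c) - m * (p c * u c) := by
      intro c; ring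
    simp only [e, Finset.sum_sub_distrib, ← Finset.mul_sum, h2, mul_zero, sub_zero]
  have hV : ∑ c, p c * (s c - m) ^ 2 = 1 - m ^ 2 := by
    have e : ∀ c, p c * (s c - m) ^ 2
        = p c * (s c * s c) - 2 * m * (p c * s c) + m ^ 2 * p c := by
      intro c; ring
    simp only [e, hs, mul_one, Finset.sum_add_distrib, Finset.sum_sub_distrib,
      ← Finset.mul_sum, h1, h4]
    ring
  rw [hW, ← hk, ← hV]
  exact weighted_cs p (fun c => s c - m) u hp0

/-- The square-root bound for fractional partitions into monochromatic subcubes. -/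
theorem sqrt_bound (f : (Fin n → ℤˣ) → ℤˣ) (A : ι → Finset (Fin n)) (σ : ι → Fin n → ℤˣ)
    (w : ι → ℝ) (hw : ∀ c, 0 ≤ w c) (hc : ∀ x, ∑ c, w c * ind (A c) (σ c) x = 1)
    (hmono : ∀ c, w c ≠ 0 → ∀ x y, (∀ i ∈ A c, x i = σ c i) → (∀ i ∈ A c, y i = σ c i) →
      f x = f y) :
    (∑ i, (∑ x, sg (f x) * sg (x i)) / 2 ^ n) ^ 2
      ≤ (1 - ((∑ x, sg (f x)) / 2 ^ n) ^ 2)
        * ∑ c, w c * ((A c).card : ℝ) / 2 ^ (A c).card := by
  obtain ⟨h1, h2, h3, h4, h5⟩ := partition_facts f A σ w hc hmono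
  have h := abstract_cs (fun c => w c / 2 ^ (A c).card) (fun c => sumA (A c) (σ c))
    (fun c => sg (f (σ c))) (fun c => ((A c).card : ℝ)) (n : ℝ) ((∑ x, sg (f x)) / 2 ^ n)
    (fun c => div_nonneg (hw c) (by positivity)) h1 h2 h3 h4 (fun c => sg_sq _)
  rw [h5] at h
  have e : ∀ c, w c * ((A c).card : ℝ) / 2 ^ (A c).card
      = w c / 2 ^ (A c).card * ((A c).card : ℝ) := by
    intro c; ring
  simp only [e]
  exact h

end Main

end Vale.Agent.Lib.P047FP
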