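import Mathlib
import Vale.Agent.Lib.P047FP.Main

open Finset Polynomial

namespace Vale.Agent.Lib.P047FP

/-- Number of plus signs prescribed on `A`. -/
noncomputable def plusCount {n : ℕ} (A : Finset (Fin n)) (s : Fin n → ℤˣ) : ℕ := by
  classical exact (A.filter (fun i => s i = 1)).card

lemma sumA_eq {n : ℕ} (A : Finset (Fin n)) (s : Fin n → ℤˣ) :
    sumA A s = 2 * (plusCount A s : ℝ) - (A.card : ℝ) := by
  classical
  unfold sumA plusCount
  have h : ∀ i ∈ A, sg (s i) = if s i = 1 then (1 : ℝ) else -1 := by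
    intro i _
    rcases Int.units_eq_one_or (s i) with h | h <;> simp [sg, h]
  rw [Finset.sum_congr rfl h, Finset.sum_ite]
  simp only [Finset.sum_const, nsmul_eq_mul, mul_one]
  have hc := Finset.card_filter_add_card_filter_not (s := A) (fun i => s i = 1)
  have hc' : ((A.filter (fun i => s i = 1)).card : ℝ)
      + ((A.filter (fun i => ¬ s i = 1)).card : ℝ) = (A.card : ℝ) := by
    exact_mod_cast hc
  convert (by linarith : ((A.filter (fun i => s i = 1)).card : ℝ)
      + ((A.filter (fun i => ¬ s i = 1)).card : ℝ) * (-1)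
      = 2 * ((A.filter (fun i => s i = 1)).card : ℝ) - (A.card : ℝ)) using 2

/-- Per-coordinate factor in the generating function. -/
noncomputable def psi (y : ℤˣ) : ℝ[X] := if y = 1 then X else 1

/-- Generating-function weight of a point. -/
noncomputable def wt {n : ℕ} (x : Fin n → ℤˣ) : ℝ[X] := ∏ i, psi (x i)

lemma sum_units (g : ℤˣ → ℝ[X]) : ∑ y, g y = g 1 + g (-1) := by
  have h : (Finset.univ : Finset ℤˣ) = {1, -1} := by decide
  rw [h, Finset.sum_pair (by decide)]

lemma gen_subcube {n : ℕ} (A : Finset (Fin n)) (s : Fin n → ℤˣ) :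
    ∑ x, C (ind A s x) * wt x = X ^ plusCount A s * (1 + X) ^ (n - A.card) := by
  classical
  -- product expansion
  let g : Fin n → ℤˣ → ℝ[X] := fun i y => if i ∈ A ∧ y ≠ s i then 0 else psi y
  have h1 : ∀ x : Fin n → ℤˣ, C (ind A s x) * wt x = ∏ i, g i (x i) := by
    intro x
    unfold wt ind
    by_cases hx : ∀ i ∈ A, x i = s i
    · rw [if_pos hx, C_1, one_mul]
      refine Finset.prod_congr rfl fun i _ => ?_
      have : ¬ (i ∈ A ∧ x i ≠ s i) := fun h => h.2 (hx i h.1)
      simp [g, this]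
    · rw [if_neg hx, C_0, zero_mul]
      push Not at hx
      obtain ⟨i, hi, hne⟩ := hx
      symm
      refine Finset.prod_eq_zero (Finset.mem_univ i) ?_
      simp [g, hi, hne]
  simp_rw [h1]
  have h2 := Finset.prod_univ_sum (fun _ : Fin n => (Finset.univ : Finset ℤˣ)) g
  rw [Fintype.piFinset_univ] at h2
  rw [← h2]
  have h3 : ∀ i : Fin n, ∑ y, g i y = if i ∈ A then psi (s i) else 1 + X := by
    intro i
    rw [sum_units]
    by_cases hi : i ∈ A
    · rw [if_pos hi]
      rcases Int.units_eq_one_or (s i) with h | h <;> simp [g, hi, h, psi]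
    · rw [if_neg hi]
      simp [g, hi, psi, add_comm]
  simp_rw [h3]
  rw [Finset.prod_ite]
  have hf : Finset.univ.filter (fun i => i ∈ A) = A := by ext; simp
  have hf2 : Finset.univ.filter (fun i : Fin n => i ∉ A) = Aᶜ := by ext; simp
  rw [hf, hf2, Finset.prod_const, Finset.card_compl, Fintype.card_fin]
  congr 1
  unfold plusCount psi
  rw [Finset.prod_ite]
  simp

lemma gen_total {n : ℕ} : (∑ x : Fin n → ℤˣ, wt x) = (1 + X) ^ n := by
  have h := gen_subcube (∅ : Finset (Fin n)) (fun _ => 1)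
  simpa [ind_empty, plusCount] using h

section Cover

variable {n : ℕ} {ι : Type} [Fintype ι]

/-- The generating function identity at level `n`. -/
lemma gen_cover (A : ι → Finset (Fin n)) (σ : ι → Fin n → ℤˣ) (w : ι → ℝ)
    (hc : ∀ x, ∑ c, w c * ind (A c) (σ c) x = 1) :
    ∑ c, C (w c) * (X ^ plusCount (A c) (σ c) * (1 + X) ^ (n - (A c).card)) = (1 + X) ^ n := by
  rw [← gen_total]
  simp_rw [← gen_subcube, Finset.mul_sum]
  rw [Finset.sum_comm]
  refine Finset.sum_congr rfl fun x _ => ?_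
  have h1 : (1 : ℝ[X]) = C (∑ c, w c * ind (A c) (σ c) x) := by rw [hc x, C_1]
  calc ∑ c, C (w c) * (C (ind (A c) (σ c) x) * wt x)
      = (∑ c, C (w c * ind (A c) (σ c) x)) * wt x := by
        rw [Finset.sum_mul]
        refine Finset.sum_congr rfl fun c _ => ?_
        rw [C_mul, mul_assoc]
    _ = C (∑ c, w c * ind (A c) (σ c) x) * wt x := by rw [map_sum]
    _ = wt x := by rw [← h1, one_mul]

/-- The generating function identity at level `k`, when all pieces have codimension at most `k`. -/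
lemma gen_cover_k (A : ι → Finset (Fin n)) (σ : ι → Fin n → ℤˣ) (w : ι → ℝ)
    (hc : ∀ x, ∑ c, w c * ind (A c) (σ c) x = 1) (k : ℕ)
    (hk : ∀ c, w c ≠ 0 → (A c).card ≤ k) :
    ∑ c, C (w c) * (X ^ plusCount (A c) (σ c) * (1 + X) ^ (k - (A c).card)) = (1 + X) ^ k := by
  have hne : ((1 : ℝ[X]) + X) ^ n ≠ 0 := by
    apply pow_ne_zero
    intro h
    have := congrArg (fun p : ℝ[X] => p.eval (0 : ℝ)) h
    simp at this
  apply mul_right_cancel₀ hne
  rw [Finset.sum_mul]
  have h := gen_cover A σ w hc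
  calc ∑ c, C (w c) * (X ^ plusCount (A c) (σ c) * (1 + X) ^ (k - (A c).card)) * (1 + X) ^ n
      = ∑ c, C (w c) * (X ^ plusCount (A c) (σ c) * (1 + X) ^ (n - (A c).card)) * (1 + X) ^ k := by
        refine Finset.sum_congr rfl fun c _ => ?_
        by_cases hw : w c = 0
        · simp [hw]
        have h1 := hk c hw
        have h2 : (A c).card ≤ n := by
          simpa using Finset.card_le_univ (A c)
        have e : k - (A c).card + n = n - (A c).card + k := by omega
        calc C (w c) * (X ^ plusCount (A c) (σ c) * (1 + X) ^ (k - (A c).card)) * (1 + X) ^ n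
            = C (w c) * X ^ plusCount (A c) (σ c) * (1 + X) ^ (k - (A c).card + n) := by
              rw [pow_add]; ring
          _ = C (w c) * X ^ plusCount (A c) (σ c) * (1 + X) ^ (n - (A c).card + k) := by rw [e]
          _ = _ := by rw [pow_add]; ring
    _ = (1 + X) ^ n * (1 + X) ^ k := by rw [← Finset.sum_mul, h]
    _ = (1 + X) ^ k * (1 + X) ^ n := mul_comm _ _

/-- Coefficient identity. -/
lemma coeff_cover (A : ι → Finset (Fin n)) (σ : ι → Fin n → ℤˣ) (w : ι → ℝ)
    (hc : ∀ x, ∑ c, w c * ind (A c) (σ c) x = 1) (k : ℕ)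
    (hk : ∀ c, w c ≠ 0 → (A c).card ≤ k) (j : ℕ) :
    ∑ c, w c * (if plusCount (A c) (σ c) ≤ j
        then ((k - (A c).card).choose (j - plusCount (A c) (σ c)) : ℝ) else 0)
      = (k.choose j : ℝ) := by
  have h := congrArg (fun p : ℝ[X] => p.coeff j) (gen_cover_k A σ w hc k hk)
  simp only [finsetSum_coeff, coeff_C_mul, coeff_X_pow_mul', coeff_one_add_X_pow] at h
  rw [← h]

/-- Centered binomial sum vanishes. -/
lemma centered_choose (m : ℕ) :
    ∑ i ∈ Finset.range (m + 1), (m.choose i : ℝ) * (2 * (i : ℝ) - m) = 0 := by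
  have h := Finset.sum_range_reflect (fun i : ℕ => (m.choose i : ℝ) * (2 * (i : ℝ) - m)) (m + 1)
  have h2 : ∀ j ∈ Finset.range (m + 1),
      (m.choose (m + 1 - 1 - j) : ℝ) * (2 * ((m + 1 - 1 - j : ℕ) : ℝ) - m)
        = - ((m.choose j : ℝ) * (2 * (j : ℝ) - m)) := by
    intro j hj
    have hj' : j ≤ m := Nat.lt_succ_iff.mp (Finset.mem_range.mp hj)
    have e : m + 1 - 1 - j = m - j := by omega
    rw [e, Nat.choose_symm hj', Nat.cast_sub hj']
    ring
  rw [Finset.sum_congr rfl h2, Finset.sum_neg_distrib] at h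
  linarith

lemma sum_choose_real (m : ℕ) :
    ∑ i ∈ Finset.range (m + 1), (m.choose i : ℝ) = 2 ^ m := by
  have h := Nat.sum_range_choose m
  exact_mod_cast h

/-- Jensen's inequality for a single piece. -/
lemma piece_bound (a m k : ℕ) (h : a + m ≤ k) :
    2 ^ m * |2 * (a : ℝ) + m - k|
      ≤ ∑ j ∈ Finset.range (k + 1),
          (if a ≤ j then (m.choose (j - a) : ℝ) else 0) * |2 * (j : ℝ) - k| := by
  classical
  have hinj : Set.InjOn (fun i : ℕ => a + i) (Finset.range (m + 1) : Set ℕ) := by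
    intro x _ y _ hxy
    simpa using hxy
  have hsub : (Finset.range (m + 1)).image (fun i : ℕ => a + i) ⊆ Finset.range (k + 1) := by
    intro j hj
    obtain ⟨i, hi, rfl⟩ := Finset.mem_image.mp hj
    have := Finset.mem_range.mp hi
    exact Finset.mem_range.mpr (by omega)
  have h1 : ∑ j ∈ (Finset.range (m + 1)).image (fun i : ℕ => a + i),
        (if a ≤ j then (m.choose (j - a) : ℝ) else 0) * |2 * (j : ℝ) - k|
      ≤ ∑ j ∈ Finset.range (k + 1),
          (if a ≤ j then (m.choose (j - a) : ℝ) else 0) * |2 * (j : ℝ) - k| := by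
    refine Finset.sum_le_sum_of_subset_of_nonneg hsub fun j _ _ => ?_
    refine mul_nonneg ?_ (abs_nonneg _)
    split_ifs <;> positivity
  rw [Finset.sum_image hinj] at h1
  have h2 : ∑ i ∈ Finset.range (m + 1),
        (if a ≤ a + i then (m.choose (a + i - a) : ℝ) else 0) * |2 * ((a + i : ℕ) : ℝ) - k|
      = ∑ i ∈ Finset.range (m + 1), |(m.choose i : ℝ) * (2 * ((a + i : ℕ) : ℝ) - k)| := by
    refine Finset.sum_congr rfl fun i _ => ?_
    rw [if_pos (Nat.le_add_right a i), Nat.add_sub_cancel_left, abs_mul,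
      abs_of_nonneg (Nat.cast_nonneg _ : (0 : ℝ) ≤ (m.choose i : ℝ))]
  rw [h2] at h1
  have h3 : ∑ i ∈ Finset.range (m + 1), (m.choose i : ℝ) * (2 * ((a + i : ℕ) : ℝ) - k)
      = 2 ^ m * (2 * (a : ℝ) + m - k) := by
    have e : ∀ i ∈ Finset.range (m + 1), (m.choose i : ℝ) * (2 * ((a + i : ℕ) : ℝ) - k)
        = (m.choose i : ℝ) * (2 * (i : ℝ) - m) + (m.choose i : ℝ) * (2 * (a : ℝ) + m - k) := by
      intro i _
      push_cast
      ring
    rw [Finset.sum_congr rfl e, Finset.sum_add_distrib, centered_choose, zero_add,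
      ← Finset.sum_mul, sum_choose_real]
  have h4 := Finset.abs_sum_le_sum_abs (fun i : ℕ => (m.choose i : ℝ) * (2 * ((a + i : ℕ) : ℝ) - k))
    (Finset.range (m + 1))
  rw [h3, abs_mul, abs_of_pos (by positivity : (0 : ℝ) < 2 ^ m)] at h4
  exact h4.trans h1

/-- The bound by the expected absolute value of a sum of `k` signs. -/
theorem level_bound (f : (Fin n → ℤˣ) → ℤˣ) (A : ι → Finset (Fin n)) (σ : ι → Fin n → ℤˣ)
    (w : ι → ℝ) (hw : ∀ c, 0 ≤ w c) (hc : ∀ x, ∑ c, w c * ind (A c) (σ c) x = 1)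
    (hmono : ∀ c, w c ≠ 0 → ∀ x y, (∀ i ∈ A c, x i = σ c i) → (∀ i ∈ A c, y i = σ c i) →
      f x = f y) (k : ℕ) (hk : ∀ c, w c ≠ 0 → (A c).card ≤ k) :
    ∑ i, (∑ x, sg (f x) * sg (x i)) / 2 ^ n
      ≤ (∑ j ∈ Finset.range (k + 1), (k.choose j : ℝ) * |2 * (j : ℝ) - k|) / 2 ^ k := by
  obtain ⟨-, -, -, -, h5⟩ := partition_facts f A σ w hc hmono
  rw [← h5]
  rw [le_div_iff₀ (by positivity : (0 : ℝ) < 2 ^ k)]
  -- the right-hand side, piece by piece
  have hR : ∑ j ∈ Finset.range (k + 1), (k.choose j : ℝ) * |2 * (j : ℝ) - k|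
      = ∑ c, w c * ∑ j ∈ Finset.range (k + 1),
          (if plusCount (A c) (σ c) ≤ j
            then ((k - (A c).card).choose (j - plusCount (A c) (σ c)) : ℝ) else 0)
            * |2 * (j : ℝ) - k| := by
    simp_rw [Finset.mul_sum]
    rw [Finset.sum_comm]
    refine Finset.sum_congr rfl fun j _ => ?_
    rw [← coeff_cover A σ w hc k hk j, Finset.sum_mul]
    refine Finset.sum_congr rfl fun c _ => ?_
    ring
  rw [hR, Finset.sum_mul]
  refine Finset.sum_le_sum fun c _ => ?_
  by_cases hwc : w c = 0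
  · simp [hwc]
  have hcard := hk c hwc
  have hpc : plusCount (A c) (σ c) ≤ (A c).card := by
    unfold plusCount
    exact Finset.card_filter_le _ _
  have hb := piece_bound (plusCount (A c) (σ c)) (k - (A c).card) k (by omega)
  have hu : 2 * (plusCount (A c) (σ c) : ℝ) + ((k - (A c).card : ℕ) : ℝ) - k
      = sumA (A c) (σ c) := by
    rw [sumA_eq, Nat.cast_sub hcard]; ring
  rw [hu] at hb
  have hs : sg (f (σ c)) * sumA (A c) (σ c) ≤ |sumA (A c) (σ c)| := by
    rcases Int.units_eq_one_or (f (σ c)) with h | h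
    · simp only [h, sg, Units.val_one, Int.cast_one, one_mul]
      exact le_abs_self _
    · simp only [h, sg, Units.val_neg, Units.val_one, Int.cast_neg, Int.cast_one, neg_mul, one_mul]
      exact neg_le_abs _
  have hpow : (2 : ℝ) ^ k = 2 ^ (k - (A c).card) * 2 ^ (A c).card := by
    rw [← pow_add, Nat.sub_add_cancel hcard]
  have h2pos : (0 : ℝ) < 2 ^ (A c).card := by positivity
  have hmain : w c / 2 ^ (A c).card * (sg (f (σ c)) * sumA (A c) (σ c)) * 2 ^ k
      = w c * ((sg (f (σ c)) * sumA (A c) (σ c)) * 2 ^ (k - (A c).card)) := by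
    rw [hpow]
    field_simp
  rw [hmain]
  refine mul_le_mul_of_nonneg_left ?_ (hw c)
  calc sg (f (σ c)) * sumA (A c) (σ c) * 2 ^ (k - (A c).card)
      ≤ |sumA (A c) (σ c)| * 2 ^ (k - (A c).card) :=
        mul_le_mul_of_nonneg_right hs (by positivity)
    _ = 2 ^ (k - (A c).card) * |sumA (A c) (σ c)| := mul_comm _ _
    _ ≤ _ := hb

end Cover

end Vale.Agent.Lib.P047FP
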